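import Mathlib

-- ▼ part R040/T2a
section

set_option autoImplicit false
open MeasureTheory Set Filter Topology
open scoped ENNReal NNReal

namespace Crest.Agent.R040.T2

noncomputable section

/-- the unit vector `e^{iθ}` -/
def ue (θ : ℝ) : ℂ := Complex.exp (θ * Complex.I)

lemma norm_ue (θ : ℝ) : ‖ue θ‖ = 1 := Complex.norm_exp_ofReal_mul_I θ

@[fun_prop]
lemma continuous_ue : Continuous ue := by unfold ue; fun_prop

lemma ue_add (a b : ℝ) : ue (a + b) = ue a * ue b := by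
  unfold ue
  rw [← Complex.exp_add]; push_cast; ring_nf


lemma ue_pi : ue Real.pi = -1 := by simp [ue]

lemma ue_add_pi (a : ℝ) : ue (a + Real.pi) = - ue a := by
  rw [ue_add, ue_pi]; ring

lemma ue_re (a : ℝ) : (ue a).re = Real.cos a := Complex.exp_ofReal_mul_I_re a
lemma ue_im (a : ℝ) : (ue a).im = Real.sin a := Complex.exp_ofReal_mul_I_im a

lemma exists_ue {u : ℂ} (h : ‖u‖ = 1) : ∃ θ : ℝ, ue θ = u := by
  refine ⟨Complex.arg u, ?_⟩
  have := Complex.norm_mul_exp_arg_mul_I u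
  rw [h] at this
  simpa [ue] using this

lemma norm_ue_sub (a b : ℝ) : ‖ue a - ue b‖ ≤ |a - b| := by
  have h : ue a - ue b = ue b * (Complex.exp (Complex.I * ((a - b : ℝ) : ℂ)) - 1) := by
    have : ue a = ue b * ue (a - b) := by rw [← ue_add]; ring_nf
    rw [this]
    unfold ue
    rw [mul_sub, mul_one, mul_comm Complex.I]
  rw [h, norm_mul, norm_ue, one_mul]
  exact Real.norm_exp_I_mul_ofReal_sub_one_le

/-- almost no unit neighbour of `z` lies in `A` -/
def Nul (A : Set ℂ) (z : ℂ) : Prop := ∀ᵐ θ : ℝ, z + ue θ ∉ A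

lemma measurable_add_ue : Measurable (fun p : ℂ × ℝ => p.1 + ue p.2) := by fun_prop

lemma measurableSet_nul {A : Set ℂ} (hA : MeasurableSet A) : MeasurableSet {z | Nul A z} := by
  have hs : MeasurableSet {p : ℂ × ℝ | p.1 + ue p.2 ∈ A} := measurable_add_ue hA
  have h := measurable_measure_prodMk_left (ν := (volume : Measure ℝ)) hs
  have : {z | Nul A z} = (fun z : ℂ => (volume : Measure ℝ) (Prod.mk z ⁻¹' {p : ℂ × ℝ | p.1 + ue p.2 ∈ A})) ⁻¹' {0} := by
    ext z
    simp only [mem_ofPred_eq, Nul, mem_preimage, mem_singleton_iff]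
    rw [ae_iff]
    simp only [not_not]
    rfl
  rw [this]
  exact h (measurableSet_singleton 0)

/-- Null sets are met by almost every unit circle in a null set. -/
lemma ae_shift {P : ℂ → Prop} (h : ∀ᵐ z : ℂ, P z) : ∀ᵐ z : ℂ, ∀ᵐ θ : ℝ, P (z + ue θ) := by
  set N := toMeasurable (volume : Measure ℂ) {z | ¬ P z} with hN
  have hN0 : volume N = 0 := by rw [hN, measure_toMeasurable]; exact h
  have hNm : MeasurableSet N := measurableSet_toMeasurable _ _
  have h1 : ∀ᵐ θ : ℝ, ∀ᵐ z : ℂ, z + ue θ ∉ N := by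
    refine Eventually.of_forall fun θ => ?_
    rw [ae_iff]
    simp only [not_not]
    have : {a : ℂ | a + ue θ ∈ N} = (fun a => a + ue θ) ⁻¹' N := rfl
    rw [this, measure_preimage_add_right, hN0]
  have h2 : ∀ᵐ z : ℂ, ∀ᵐ θ : ℝ, z + ue θ ∉ N := by
    refine (Measure.ae_ae_comm (μ := (volume : Measure ℂ)) (ν := (volume : Measure ℝ))
      (p := fun z θ => z + ue θ ∉ N) ?_).2 h1
    exact measurable_add_ue hNm.compl
  filter_upwards [h2] with z hz
  filter_upwards [hz] with θ hθ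
  by_contra hP
  exact hθ (subset_toMeasurable _ _ hP)

lemma Nul.sub {A : Set ℂ} {z : ℂ} (h : Nul A z) : ∀ᵐ θ : ℝ, z - ue θ ∉ A := by
  have h2 : ∀ᵐ θ : ℝ, z + ue (θ + Real.pi) ∉ A := by
    have := (measurePreserving_add_right (volume : Measure ℝ) Real.pi).quasiMeasurePreserving.ae h
    exact this
  filter_upwards [h2] with θ hθ
  rwa [ue_add_pi, ← sub_eq_add_neg] at hθ

/-- For almost every `w ∈ A`, almost no unit neighbour `z` of `w` satisfies `Nul A z`. -/
lemma ae_mem_not_nul {A : Set ℂ} (hA : MeasurableSet A) :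
    ∀ᵐ w : ℂ, ∀ᵐ θ : ℝ, w ∈ A → ¬ Nul A (w + ue θ) := by
  have hm := measurableSet_nul hA
  -- for every `θ` translate
  have h0 : ∀ᵐ z : ℂ, ∀ᵐ θ : ℝ, z - ue θ ∈ A → ¬ Nul A z := by
    refine Eventually.of_forall fun z => ?_
    by_cases hz : Nul A z
    · filter_upwards [hz.sub] with θ hθ h
      exact absurd h hθ
    · exact Eventually.of_forall fun θ _ => hz
  have hms : MeasurableSet {x : ℂ × ℝ | x.1 - ue x.2 ∈ A → ¬ Nul A x.1} := by
    have e : {x : ℂ × ℝ | x.1 - ue x.2 ∈ A → ¬ Nul A x.1} =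
        ((fun x : ℂ × ℝ => x.1 - ue x.2) ⁻¹' A)ᶜ ∪ (Prod.fst ⁻¹' {z | Nul A z})ᶜ := by
      ext x
      simp only [mem_ofPred_eq, mem_union, mem_compl_iff, mem_preimage]
      tauto
    rw [e]
    refine MeasurableSet.union (MeasurableSet.compl ?_) (MeasurableSet.compl (measurable_fst hm))
    exact (by fun_prop : Measurable (fun x : ℂ × ℝ => x.1 - ue x.2)) hA
  have h1 : ∀ᵐ θ : ℝ, ∀ᵐ z : ℂ, z - ue θ ∈ A → ¬ Nul A z :=
    (Measure.ae_ae_comm (μ := (volume : Measure ℂ)) (ν := (volume : Measure ℝ))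
      (p := fun z θ => z - ue θ ∈ A → ¬ Nul A z) hms).1 h0
  have h2 : ∀ᵐ θ : ℝ, ∀ᵐ w : ℂ, w ∈ A → ¬ Nul A (w + ue θ) := by
    filter_upwards [h1] with θ hθ
    have := (measurePreserving_add_right (volume : Measure ℂ) (ue θ)).quasiMeasurePreserving.ae hθ
    simpa using this
  refine (Measure.ae_ae_comm (μ := (volume : Measure ℂ)) (ν := (volume : Measure ℝ))
      (p := fun w θ => w ∈ A → ¬ Nul A (w + ue θ)) ?_).2 h2
  have e : {x : ℂ × ℝ | x.1 ∈ A → ¬ Nul A (x.1 + ue x.2)} =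
      (Prod.fst ⁻¹' A)ᶜ ∪ ((fun x : ℂ × ℝ => x.1 + ue x.2) ⁻¹' {z | Nul A z})ᶜ := by
    ext x
    simp only [mem_ofPred_eq, mem_union, mem_compl_iff, mem_preimage]
    tauto
  rw [e]
  exact ((measurable_fst hA).compl).union (measurable_add_ue hm).compl

/-- `q` is a density point of `A` (in the form we need). -/
def Dens (A : Set ℂ) (q : ℂ) : Prop :=
  ∀ κ : ℝ, 0 < κ → ∀ᶠ r in 𝓝[>] (0 : ℝ), volume (Metric.closedBall q r \ A) ≤ ENNReal.ofReal (κ * r ^ 2)

lemma ae_dens {A : Set ℂ} (hA : MeasurableSet A) : ∀ᵐ q : ℂ, q ∈ A → Dens A q := by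
  have h := Besicovitch.ae_tendsto_measure_inter_div_of_measurableSet (volume : Measure ℂ) hA.compl
  filter_upwards [h] with q hq hqA κ hκ
  have h0 : (Aᶜ).indicator (1 : ℂ → ℝ≥0∞) q = 0 := by
    rw [indicator_of_notMem]; simpa using hqA
  rw [h0] at hq
  have hκ' : (0 : ℝ≥0∞) < ENNReal.ofReal (κ / Real.pi) := by
    rw [ENNReal.ofReal_pos]; positivity
  have h1 := (ENNReal.tendsto_nhds_zero.1 hq) _ hκ'
  have h2 : ∀ᶠ r in 𝓝[>] (0 : ℝ), 0 < r := eventually_mem_nhdsWithin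
  filter_upwards [h1, h2] with r hr hr0
  have hvol : volume (Metric.closedBall q r) = ENNReal.ofReal r ^ 2 * NNReal.pi :=
    Complex.volume_closedBall q r
  have hpos : volume (Metric.closedBall q r) ≠ 0 :=
    (Metric.measure_closedBall_pos volume q hr0).ne'
  have hfin : volume (Metric.closedBall q r) ≠ ∞ := measure_closedBall_lt_top.ne
  have h3 : volume (Aᶜ ∩ Metric.closedBall q r) ≤
      ENNReal.ofReal (κ / Real.pi) * volume (Metric.closedBall q r) :=
    (ENNReal.div_le_iff hpos hfin).1 hr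
  have e1 : Metric.closedBall q r \ A = Aᶜ ∩ Metric.closedBall q r := by
    ext x; simp [and_comm]
  rw [e1]
  refine h3.trans (le_of_eq ?_)
  rw [hvol]
  have : (NNReal.pi : ℝ≥0∞) = ENNReal.ofReal Real.pi := by
    rw [ENNReal.ofReal, ← NNReal.coe_real_pi, Real.toNNReal_coe]
  rw [this, ← ENNReal.ofReal_pow hr0.le, ← ENNReal.ofReal_mul (by positivity),
    ← ENNReal.ofReal_mul (by positivity)]
  congr 1
  field_simp

end

end Crest.Agent.R040.T2
end

-- ▼ part R040/T2b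
section

set_option autoImplicit false
open MeasureTheory Set Filter Topology
open scoped ENNReal NNReal

namespace Crest.Agent.R040.T2

noncomputable section

lemma hasStrictDerivAt_ue (a : ℝ) : HasStrictDerivAt ue (Complex.I * ue a) a := by
  have h1 : HasStrictDerivAt (fun x : ℝ => (x : ℂ) * Complex.I) Complex.I a := by
    have := (Complex.ofRealCLM.hasStrictDerivAt (x := a)).mul_const Complex.I
    simpa using this
  have h2 := h1.cexp
  unfold ue
  convert h2 using 1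
  ring

/-- the sweeping map -/
def sw (p : ℂ) : ℂ := ue p.re + ue p.im

/-- its derivative -/
def swL (b t : ℝ) : ℂ →L[ℝ] ℂ :=
  Complex.reCLM.smulRight (Complex.I * ue b) + Complex.imCLM.smulRight (Complex.I * ue t)

lemma swL_apply (b t : ℝ) (v : ℂ) :
    swL b t v = (v.re : ℂ) * (Complex.I * ue b) + (v.im : ℂ) * (Complex.I * ue t) := by
  simp [swL]

lemma hasStrictFDerivAt_sw (b t : ℝ) : HasStrictFDerivAt sw (swL b t) (⟨b, t⟩ : ℂ) := by
  have h1 : HasStrictFDerivAt (fun p : ℂ => ue p.re)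
      (Complex.reCLM.smulRight (Complex.I * ue b)) (⟨b, t⟩ : ℂ) := by
    have h := (hasStrictDerivAt_ue b).hasStrictFDerivAt
    have hr : HasStrictFDerivAt (fun p : ℂ => p.re) Complex.reCLM (⟨b, t⟩ : ℂ) :=
      Complex.reCLM.hasStrictFDerivAt
    have := HasStrictFDerivAt.comp (x := (⟨b, t⟩ : ℂ)) (g := ue) (f := fun p : ℂ => p.re) h hr
    refine this.congr_fderiv ?_
    ext v <;> simp
  have h2 : HasStrictFDerivAt (fun p : ℂ => ue p.im)
      (Complex.imCLM.smulRight (Complex.I * ue t)) (⟨b, t⟩ : ℂ) := by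
    have h := (hasStrictDerivAt_ue t).hasStrictFDerivAt
    have hr : HasStrictFDerivAt (fun p : ℂ => p.im) Complex.imCLM (⟨b, t⟩ : ℂ) :=
      Complex.imCLM.hasStrictFDerivAt
    have := HasStrictFDerivAt.comp (x := (⟨b, t⟩ : ℂ)) (g := ue) (f := fun p : ℂ => p.im) h hr
    refine this.congr_fderiv ?_
    ext v <;> simp
  exact h1.add h2

lemma det_swL (b t : ℝ) : (swL b t).det = Real.sin (t - b) := by
  have h : (swL b t).det = LinearMap.det ((swL b t : ℂ →L[ℝ] ℂ) : ℂ →ₗ[ℝ] ℂ) := rfl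
  rw [h, ← LinearMap.det_toMatrix Complex.basisOneI, Matrix.det_fin_two]
  simp only [LinearMap.toMatrix_apply, Complex.coe_basisOneI_repr, Complex.coe_basisOneI]
  simp only [Fin.isValue, Matrix.cons_val_zero, Matrix.cons_val_one, ContinuousLinearMap.coe_coe,
    swL_apply, Complex.one_re, Complex.one_im, Complex.I_re, Complex.I_im]
  simp [ue_re, ue_im, Real.sin_sub]
  ring

/-- volume of a "rectangle" -/
lemma volume_rect {S T : Set ℝ} :
    volume {p : ℂ | p.re ∈ S ∧ p.im ∈ T} = volume S * volume T := by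
  have h : {p : ℂ | p.re ∈ S ∧ p.im ∈ T} = Complex.measurableEquivRealProd ⁻¹' (S ×ˢ T) := by
    ext p; simp
  rw [h, Complex.volume_preserving_equiv_real_prod.measure_preimage_equiv,
    Measure.volume_eq_prod, Measure.prod_prod]

/-- In a product of `S` and an interval, if for each `s ∈ S` a.e. `θ` is good, then the bad part is null. -/
lemma volume_bad_null {G : Set ℂ} (hG : MeasurableSet G) {S T : Set ℝ} (hS : MeasurableSet S)
    (hT : MeasurableSet T)
    (h : ∀ s ∈ S, ∀ᵐ θ : ℝ, (⟨s, θ⟩ : ℂ) ∈ G) :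
    volume ({p : ℂ | p.re ∈ S ∧ p.im ∈ T} \ G) = 0 := by
  have hmeas : MeasurableSet ({p : ℝ × ℝ | p.1 ∈ S ∧ p.2 ∈ T} \
      (Complex.measurableEquivRealProd.symm ⁻¹' G)) := by
    refine MeasurableSet.diff ?_ ?_
    · exact hS.prod hT
    · exact Complex.measurableEquivRealProd.symm.measurable hG
  have h1 : ({p : ℂ | p.re ∈ S ∧ p.im ∈ T} \ G) = Complex.measurableEquivRealProd ⁻¹'
      ({p : ℝ × ℝ | p.1 ∈ S ∧ p.2 ∈ T} \ (Complex.measurableEquivRealProd.symm ⁻¹' G)) := by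
    ext p
    simp
  rw [h1, Complex.volume_preserving_equiv_real_prod.measure_preimage_equiv,
    Measure.volume_eq_prod, Measure.measure_prod_null hmeas]
  refine Eventually.of_forall fun s => ?_
  by_cases hs : s ∈ S
  · have := h s hs
    rw [ae_iff] at this
    refine measure_mono_null ?_ this
    intro θ hθ
    simp only [mem_preimage, Set.mem_sdiff] at hθ
    exact hθ.2
  · have : Prod.mk s ⁻¹' ({p : ℝ × ℝ | p.1 ∈ S ∧ p.2 ∈ T} \
      (Complex.measurableEquivRealProd.symm ⁻¹' G)) = ∅ := by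
      ext θ
      simp [hs]
    show volume (Prod.mk s ⁻¹' ({p : ℝ × ℝ | p.1 ∈ S ∧ p.2 ∈ T} \
      (Complex.measurableEquivRealProd.symm ⁻¹' G))) = 0
    rw [this]; simp

/-- **Sweeping lemma.** Let `q = z + e^{it}` be a density point of `A`, `w = z - e^{ib}`, with
`q - z` and `z - w` not parallel.  For all small `ε` and all `w'` with `‖w' - w‖ ≤ ε`, the set of
`s ∈ (b-ε, b+ε)` with `Nul A (w' + e^{is})` has measure at most `η ε`. -/
lemma sweep {A : Set ℂ} (hA : MeasurableSet A) {z : ℂ} {b t : ℝ} (hq : Dens A (z + ue t))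
    (hpar : Real.sin (t - b) ≠ 0) {η : ℝ} (hη : 0 < η) :
    ∀ᶠ ε in 𝓝[>] (0 : ℝ), ∀ w' : ℂ, ‖w' - (z - ue b)‖ ≤ ε →
      volume {s : ℝ | s ∈ Ioo (b - ε) (b + ε) ∧ Nul A (w' + ue s)} ≤ ENNReal.ofReal (η * ε) := by
  set L := swL b t with hL
  set d : ℝ := |Real.sin (t - b)| with hd
  have hd0 : 0 < d := abs_pos.2 hpar
  -- choose `m`
  set m : ℝ≥0 := ⟨d / 2, by positivity⟩ with hm
  have hmr : (m : ℝ) = d / 2 := rfl
  have hmd : (m : ℝ≥0∞) < ENNReal.ofReal |L.det| := by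
    rw [hL, det_swL, ← hd, ENNReal.lt_ofReal_iff_toReal_lt ENNReal.coe_ne_top]
    simp only [ENNReal.coe_toReal, hmr]
    linarith
  obtain ⟨δ, hδ, hδ0⟩ : ∃ δ : ℝ≥0, (∀ (s : Set ℂ) (f : ℂ → ℂ), ApproximatesLinearOn f L s δ →
      (m : ℝ≥0∞) * volume s ≤ volume (f '' s)) ∧ 0 < δ := by
    have h1 := mul_le_addHaar_image_of_lt_det (volume : Measure ℂ) L hmd
    have h2 : ∀ᶠ δ in 𝓝[>] (0 : ℝ≥0), 0 < δ := eventually_mem_nhdsWithin
    exact (h1.and h2).exists
  obtain ⟨V, hV, hVL⟩ := (hasStrictFDerivAt_sw b t).approximates_deriv_on_nhds (c := δ) (Or.inr hδ0)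
  obtain ⟨ρ, hρ0, hρ⟩ := Metric.mem_nhds_iff.1 hV
  -- density constant
  set κ : ℝ := η * d / 9 with hκ
  have hκ0 : 0 < κ := by positivity
  have hdens := hq κ hκ0
  -- the density at scale `3 ε`
  have h3 : Tendsto (fun ε : ℝ => 3 * ε) (𝓝[>] 0) (𝓝[>] 0) := by
    refine tendsto_nhdsWithin_iff.2 ⟨?_, ?_⟩
    · have : Tendsto (fun ε : ℝ => 3 * ε) (𝓝 0) (𝓝 (3 * 0)) :=
        (continuous_const.mul continuous_id).tendsto 0
      rw [mul_zero] at this
      exact this.mono_left nhdsWithin_le_nhds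
    · filter_upwards [eventually_mem_nhdsWithin] with ε hε
      simp only [mem_Ioi] at hε ⊢
      linarith
  have hdens3 := h3.eventually hdens
  have hsmall : ∀ᶠ ε in 𝓝[>] (0 : ℝ), ε < ρ / 2 :=
    nhdsWithin_le_nhds (Iio_mem_nhds (by positivity))
  filter_upwards [hdens3, hsmall, eventually_mem_nhdsWithin] with ε hε1 hε2 hε3 w' hw'
  have hε0 : (0 : ℝ) < ε := hε3
  set S : Set ℝ := {s : ℝ | s ∈ Ioo (b - ε) (b + ε) ∧ Nul A (w' + ue s)} with hS
  set T : Set ℝ := Ioo (t - ε) (t + ε) with hT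
  have hSm : MeasurableSet S := by
    refine MeasurableSet.inter measurableSet_Ioo ?_
    exact (by fun_prop : Measurable (fun s : ℝ => w' + ue s)) (measurableSet_nul hA)
  set G : Set ℂ := {p : ℂ | w' + sw p ∉ A} with hG
  have hswc : Continuous sw := by unfold sw; fun_prop
  have hGm : MeasurableSet G := by
    have : Measurable (fun p : ℂ => w' + sw p) := (continuous_const.add hswc).measurable
    exact this hA.compl
  set R : Set ℂ := {p : ℂ | p.re ∈ S ∧ p.im ∈ T} with hR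
  have hRG : volume (R \ G) = 0 := by
    refine volume_bad_null hGm hSm measurableSet_Ioo ?_
    intro s hs
    have := hs.2
    filter_upwards [this] with θ hθ
    simp only [hG, mem_ofPred_eq, sw]
    rwa [← add_assoc]
  have hRV : R ⊆ V := by
    intro p hp
    apply hρ
    rw [Metric.mem_ball, dist_eq_norm]
    have h1 : |p.re - b| < ε := by
      rw [abs_lt]; have := hp.1.1; constructor <;> linarith [this.1, this.2]
    have h2 : |p.im - t| < ε := by
      rw [abs_lt]; have := hp.2; constructor <;> linarith [this.1, this.2]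
    calc ‖p - (⟨b, t⟩ : ℂ)‖ ≤ |(p - (⟨b, t⟩ : ℂ)).re| + |(p - (⟨b, t⟩ : ℂ)).im| :=
          Complex.norm_le_abs_re_add_abs_im _
      _ = |p.re - b| + |p.im - t| := by simp
      _ < ρ := by linarith
  have hApp : ApproximatesLinearOn (fun p => w' + sw p) L (R ∩ G) δ := by
    have h1 : ApproximatesLinearOn sw L (R ∩ G) δ :=
      hVL.mono_set (inter_subset_left.trans hRV)
    intro x hx y hy
    have := h1 x hx y hy
    simpa using this
  have hkey := hδ (R ∩ G) _ hApp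
  have hvolR : volume R = volume (R ∩ G) := by
    rw [← measure_inter_add_sdiff R hGm, hRG, add_zero]
  have himg : (fun p => w' + sw p) '' (R ∩ G) ⊆ Metric.closedBall (z + ue t) (3 * ε) \ A := by
    rintro _ ⟨p, ⟨hpR, hpG⟩, rfl⟩
    refine ⟨?_, hpG⟩
    rw [Metric.mem_closedBall, dist_eq_norm]
    have h1 : |p.re - b| ≤ ε := by
      rw [abs_le]; have := hpR.1.1; constructor <;> linarith [this.1, this.2]
    have h2 : |p.im - t| ≤ ε := by
      rw [abs_le]; have := hpR.2; constructor <;> linarith [this.1, this.2]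
    have e : w' + sw p - (z + ue t) = (w' - (z - ue b)) + (ue p.re - ue b) + (ue p.im - ue t) := by
      simp only [sw]; ring
    show ‖w' + sw p - (z + ue t)‖ ≤ 3 * ε
    rw [e]
    have h4 := norm_ue_sub p.re b
    have h5 := norm_ue_sub p.im t
    calc _ ≤ ‖w' - (z - ue b)‖ + ‖ue p.re - ue b‖ + ‖ue p.im - ue t‖ := norm_add₃_le
      _ ≤ 3 * ε := by linarith
  have hfin : (m : ℝ≥0∞) * (volume S * ENNReal.ofReal (2 * ε)) ≤ ENNReal.ofReal (κ * (3 * ε) ^ 2) := by
    have h1 : volume R = volume S * ENNReal.ofReal (2 * ε) := by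
      rw [hR, volume_rect, hT, Real.volume_Ioo]
      congr 2; ring
    rw [← h1, hvolR]
    exact hkey.trans ((measure_mono himg).trans hε1)
  -- conclude
  have hmE : (m : ℝ≥0∞) = ENNReal.ofReal (d / 2) := by
    rw [ENNReal.ofReal]
    congr 1
    ext
    rw [Real.coe_toNNReal _ (by positivity)]
    rfl
  have h6 : volume S * ENNReal.ofReal (d * ε) ≤ ENNReal.ofReal (η * ε) * ENNReal.ofReal (d * ε) := by
    have e1 : (m : ℝ≥0∞) * (volume S * ENNReal.ofReal (2 * ε)) = volume S * ENNReal.ofReal (d * ε) := by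
      rw [hmE, mul_left_comm, ← ENNReal.ofReal_mul (by positivity)]
      congr 2; ring
    rw [← e1, ← ENNReal.ofReal_mul (by positivity)]
    refine hfin.trans (le_of_eq ?_)
    congr 1
    rw [hκ]; ring
  have h7 : ENNReal.ofReal (d * ε) ≠ 0 := by
    rw [Ne, ENNReal.ofReal_eq_zero, not_le]; positivity
  exact (ENNReal.mul_le_mul_iff_left h7 ENNReal.ofReal_ne_top).1 h6

end

end Crest.Agent.R040.T2
end

-- ▼ part R040/T2c
section

set_option autoImplicit false
open MeasureTheory Set Filter Topology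
open scoped ENNReal NNReal

namespace Crest.Agent.R040.T2

noncomputable section

lemma ae_sin_ne_zero (b : ℝ) : ∀ᵐ t : ℝ, Real.sin (t - b) ≠ 0 := by
  have hc : ({t : ℝ | Real.sin (t - b) = 0}).Countable := by
    refine (Set.countable_range (fun n : ℤ => b + n * Real.pi)).mono ?_
    intro t ht
    obtain ⟨n, hn⟩ := Real.sin_eq_zero_iff.1 ht
    exact ⟨n, by simp only; linarith⟩
  filter_upwards [hc.ae_notMem (volume : Measure ℝ)] with t ht h
  exact ht h

lemma card_erase_le (J : Finset (Fin 5)) (i : Fin 5) : (J.erase i).card ≤ 5 := by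
  have := Finset.card_le_univ (J.erase i)
  simpa using this

/-- Step 1 of the key lemma. -/
lemma key_local {A : Fin 5 → Set ℂ} (hA : ∀ i, MeasurableSet (A i)) {B : Set ℂ} (hB : IsOpen B)
    {J : Finset (Fin 5)} {i : Fin 5} (hJ : ∀ᵐ z : ℂ, z ∈ B → ∃ j ∈ J, Nul (A j) z)
    {z : ℂ} (hz : z ∈ B) (hn : ∀ j ∈ J.erase i, ¬ Nul (A j) z)
    (hd : ∀ j, ∀ᵐ θ : ℝ, z + ue θ ∈ A j → Dens (A j) (z + ue θ)) (b : ℝ) :
    ∃ ρ > 0, ∀ᵐ w : ℂ, w ∈ Metric.ball (z - ue b) ρ → w ∉ A i := by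
  have hex : ∀ j ∈ J.erase i, ∃ t : ℝ, Dens (A j) (z + ue t) ∧ Real.sin (t - b) ≠ 0 := by
    intro j hj
    have h1 : ∃ᶠ θ in ae (volume : Measure ℝ), z + ue θ ∈ A j := by
      have := hn j hj
      unfold Nul at this
      rw [not_eventually] at this
      simpa using this
    obtain ⟨t, ht1, ht2, ht3⟩ := (h1.and_eventually ((hd j).and (ae_sin_ne_zero b))).exists
    exact ⟨t, ht2 ht1, ht3⟩
  have hsw : ∀ j ∈ J.erase i, ∀ᶠ ε in 𝓝[>] (0 : ℝ), ∀ w' : ℂ, ‖w' - (z - ue b)‖ ≤ ε →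
      volume {s : ℝ | s ∈ Ioo (b - ε) (b + ε) ∧ Nul (A j) (w' + ue s)} ≤
        ENNReal.ofReal ((1 / 4) * ε) := by
    intro j hj
    obtain ⟨t, ht1, ht2⟩ := hex j hj
    exact sweep (hA j) ht1 ht2 (by norm_num)
  have hsw' := (Filter.eventually_all_finset (J.erase i)).2 hsw
  obtain ⟨r, hr0, hr⟩ := Metric.isOpen_iff.1 hB z hz
  have hsmall : ∀ᶠ ε in 𝓝[>] (0 : ℝ), ε < r / 2 :=
    nhdsWithin_le_nhds (Iio_mem_nhds (by positivity))
  obtain ⟨ε, hε1, hε2, hε3⟩ := (hsw'.and (hsmall.and eventually_mem_nhdsWithin)).exists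
  have hε0 : (0 : ℝ) < ε := hε3
  refine ⟨ε, hε0, ?_⟩
  filter_upwards [ae_shift hJ, ae_mem_not_nul (hA i)] with w hw1 hw2 hwb hwA
  have hwn : ‖w - (z - ue b)‖ < ε := by
    rwa [Metric.mem_ball, dist_eq_norm] at hwb
  -- a.e. `s` in the interval lies in the union of the bad sets
  have hsub : (Ioo (b - ε) (b + ε) : Set ℝ) ≤ᵐ[volume]
      (⋃ j ∈ J.erase i, {s : ℝ | s ∈ Ioo (b - ε) (b + ε) ∧ Nul (A j) (w + ue s)} : Set ℝ) := by
    filter_upwards [hw1, hw2] with s hs1 hs2 hs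
    have hsB : w + ue s ∈ B := by
      apply hr
      rw [Metric.mem_ball, dist_eq_norm]
      have e : w + ue s - z = (w - (z - ue b)) + (ue s - ue b) := by ring
      rw [e]
      have h1 : |s - b| < ε := by
        rw [abs_lt]; have := (mem_Ioo.1 hs); constructor <;> linarith [this.1, this.2]
      calc _ ≤ ‖w - (z - ue b)‖ + ‖ue s - ue b‖ := norm_add_le _ _
        _ < r := by linarith [norm_ue_sub s b]
    obtain ⟨j, hj, hjN⟩ := hs1 hsB
    have hji : j ≠ i := by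
      rintro rfl
      exact hs2 hwA hjN
    show s ∈ (⋃ j ∈ J.erase i, {s : ℝ | s ∈ Ioo (b - ε) (b + ε) ∧ Nul (A j) (w + ue s)} : Set ℝ)
    simp only [mem_iUnion]
    exact ⟨j, Finset.mem_erase.2 ⟨hji, hj⟩, hs, hjN⟩
  have h1 : volume (Ioo (b - ε) (b + ε)) ≤
      ∑ j ∈ J.erase i, volume {s : ℝ | s ∈ Ioo (b - ε) (b + ε) ∧ Nul (A j) (w + ue s)} :=
    (measure_mono_ae hsub).trans (measure_biUnion_finset_le _ _)
  have h2 : ∑ j ∈ J.erase i, volume {s : ℝ | s ∈ Ioo (b - ε) (b + ε) ∧ Nul (A j) (w + ue s)} ≤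
      ∑ _j ∈ J.erase i, ENNReal.ofReal ((1 / 4) * ε) :=
    Finset.sum_le_sum fun j hj => hε1 j hj w hwn.le
  have h3 : ∑ _j ∈ J.erase i, ENNReal.ofReal ((1 / 4) * ε) ≤ ENNReal.ofReal ((5 / 4) * ε) := by
    rw [Finset.sum_const, nsmul_eq_mul]
    have hc : ((J.erase i).card : ℝ≥0∞) ≤ ENNReal.ofReal 5 := by
      have := card_erase_le J i
      calc ((J.erase i).card : ℝ≥0∞) ≤ ((5 : ℕ) : ℝ≥0∞) := by exact_mod_cast this
        _ = ENNReal.ofReal 5 := by simp
    calc _ ≤ ENNReal.ofReal 5 * ENNReal.ofReal ((1 / 4) * ε) := by gcongr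
      _ = ENNReal.ofReal ((5 / 4) * ε) := by
        rw [← ENNReal.ofReal_mul (by norm_num)]; congr 1; ring
  have h4 : ENNReal.ofReal (2 * ε) ≤ ENNReal.ofReal ((5 / 4) * ε) := by
    have e : volume (Ioo (b - ε) (b + ε)) = ENNReal.ofReal (2 * ε) := by
      rw [Real.volume_Ioo]; congr 1; ring
    rw [← e]
    exact h1.trans (h2.trans h3)
  rw [ENNReal.ofReal_le_ofReal_iff (by positivity)] at h4
  linarith

/-- **Key lemma**: if near `z` every point needs colour `i` as far as the other colours of `J` go at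
`z`, then almost every point near `z` is `Nul` for `A i`. -/
lemma key {A : Fin 5 → Set ℂ} (hA : ∀ i, MeasurableSet (A i)) {B : Set ℂ} (hB : IsOpen B)
    {J : Finset (Fin 5)} {i : Fin 5} (hJ : ∀ᵐ z : ℂ, z ∈ B → ∃ j ∈ J, Nul (A j) z)
    {z : ℂ} (hz : z ∈ B) (hn : ∀ j ∈ J.erase i, ¬ Nul (A j) z)
    (hd : ∀ j, ∀ᵐ θ : ℝ, z + ue θ ∈ A j → Dens (A j) (z + ue θ)) :
    ∃ r > 0, ∀ᵐ z' : ℂ, z' ∈ Metric.ball z r → Nul (A i) z' := by
  set V : Set ℂ := ⋃₀ {O : Set ℂ | IsOpen O ∧ volume (A i ∩ O) = 0} with hV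
  have hVo : IsOpen V := isOpen_sUnion fun O hO => hO.1
  have hVn : volume (A i ∩ V) = 0 := by
    refine measure_null_of_locally_null _ ?_
    rintro w ⟨hwA, O, ⟨hO, hO0⟩, hwO⟩
    refine ⟨A i ∩ O, ?_, hO0⟩
    have h1 : O ∩ (A i ∩ V) ∈ 𝓝[A i ∩ V] w :=
      inter_mem (mem_nhdsWithin_of_mem_nhds (hO.mem_nhds hwO)) self_mem_nhdsWithin
    filter_upwards [h1] with x hx
    exact ⟨hx.2.1, hx.1⟩
  have hVae : ∀ᵐ w : ℂ, w ∈ V → w ∉ A i := by
    rw [ae_iff]
    convert hVn using 2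
    ext w
    simp only [Classical.not_imp, not_not, mem_ofPred_eq, mem_inter_iff]
    tauto
  have hsub : Metric.sphere z 1 ⊆ V := by
    intro w hw
    have hw1 : ‖z - w‖ = 1 := by
      rw [Metric.mem_sphere, dist_eq_norm] at hw
      rw [← hw, norm_sub_rev]
    obtain ⟨b, hb⟩ := exists_ue hw1
    obtain ⟨ρ, hρ0, hρ⟩ := key_local hA hB hJ hz hn hd b
    have hwb : z - ue b = w := by rw [hb]; ring
    rw [hwb] at hρ
    refine ⟨Metric.ball w ρ, ⟨Metric.isOpen_ball, ?_⟩, Metric.mem_ball_self hρ0⟩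
    rw [ae_iff] at hρ
    convert hρ using 2
    ext x
    simp only [Classical.not_imp, not_not, mem_ofPred_eq, mem_inter_iff]
    tauto
  obtain ⟨δ, hδ0, hδ⟩ := (isCompact_sphere z 1).exists_thickening_subset_open hVo hsub
  refine ⟨δ, hδ0, ?_⟩
  filter_upwards [ae_shift hVae] with z' hz' hzb
  filter_upwards [hz'] with θ hθ
  refine hθ (hδ ?_)
  rw [Metric.mem_thickening_iff]
  refine ⟨z + ue θ, ?_, ?_⟩
  · rw [Metric.mem_sphere, dist_eq_norm]
    simp [norm_ue]
  · rw [dist_add_right]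
    exact Metric.mem_ball.1 hzb

/-- **Density theorem**: if a.e. point is `Nul` for some colour, then every nonempty open set contains a
nonempty open set a.e. point of which is `Nul` for one fixed colour. -/
theorem dense_nul {A : Fin 5 → Set ℂ} (hA : ∀ i, MeasurableSet (A i))
    (hcov : ∀ᵐ z : ℂ, ∃ i, Nul (A i) z) {B₀ : Set ℂ} (hB₀ : IsOpen B₀) (hne : B₀.Nonempty) :
    ∃ i, ∃ B ⊆ B₀, IsOpen B ∧ B.Nonempty ∧ ∀ᵐ z : ℂ, z ∈ B → Nul (A i) z := by
  classical
  let P : Finset (Fin 5) → Prop := fun J =>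
    ∃ B ⊆ B₀, IsOpen B ∧ B.Nonempty ∧ ∀ᵐ z : ℂ, z ∈ B → ∃ j ∈ J, Nul (A j) z
  have hPuniv : P Finset.univ := by
    refine ⟨B₀, Subset.rfl, hB₀, hne, ?_⟩
    filter_upwards [hcov] with z hz _
    obtain ⟨i, hi⟩ := hz
    exact ⟨i, Finset.mem_univ _, hi⟩
  obtain ⟨J, hJmem, hJmin⟩ := Finset.exists_min_image
    ((Finset.univ : Finset (Finset (Fin 5))).filter P) Finset.card
    ⟨Finset.univ, by simp [hPuniv]⟩
  obtain ⟨B, hBB, hBo, hBne, hBae⟩ : P J := by simpa using hJmem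
  have hJne : J.Nonempty := by
    by_contra hJe
    rw [Finset.not_nonempty_iff_eq_empty] at hJe
    subst hJe
    have h1 : ∀ᵐ z : ℂ, z ∉ B := by
      filter_upwards [hBae] with z hz hzB
      obtain ⟨j, hj, _⟩ := hz hzB
      simp at hj
    have h2 : volume B = 0 := by
      rw [ae_iff] at h1
      simpa using h1
    exact (hBo.measure_pos volume hBne).ne' h2
  obtain ⟨i, hi⟩ := hJne
  have hnot : ¬ P (J.erase i) := by
    intro h
    have := hJmin (J.erase i) (by simp [h])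
    have h2 := Finset.card_erase_lt_of_mem hi
    omega
  have hfreq : ∃ᶠ z in ae (volume : Measure ℂ), z ∈ B ∧ ∀ j ∈ J.erase i, ¬ Nul (A j) z := by
    by_contra hcon
    rw [not_frequently] at hcon
    apply hnot
    refine ⟨B, hBB, hBo, hBne, ?_⟩
    filter_upwards [hcon] with z hz hzB
    by_contra h
    push Not at h
    exact hz ⟨hzB, h⟩
  have hdens : ∀ᵐ z : ℂ, ∀ j, ∀ᵐ θ : ℝ, z + ue θ ∈ A j → Dens (A j) (z + ue θ) := by
    rw [ae_all_iff]
    intro j
    exact ae_shift (ae_dens (hA j))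
  obtain ⟨z, ⟨hzB, hzn⟩, hzd⟩ := (hfreq.and_eventually hdens).exists
  obtain ⟨r, hr0, hr⟩ := key hA hBo hBae hzB hzn hzd
  refine ⟨i, B ∩ Metric.ball z r, inter_subset_left.trans hBB, hBo.inter Metric.isOpen_ball,
    ⟨z, hzB, Metric.mem_ball_self hr0⟩, ?_⟩
  filter_upwards [hr] with z' hz' hz'B
  exact hz' hz'B.2

end

end Crest.Agent.R040.T2
end

-- ▼ part R040/T2d

set_option autoImplicit false
open MeasureTheory Set Filter Topology
open scoped ENNReal NNReal

namespace Crest.Agent.R040.T2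

noncomputable section

/-- a.e. `1`-avoiding -/
def AEAvoid (A : Set ℂ) : Prop := ∀ᵐ z : ℂ, z ∈ A → Nul A z

lemma Nul.mono {A A' : Set ℂ} (h : A ⊆ A') {z : ℂ} (hz : Nul A' z) : Nul A z := by
  filter_upwards [hz] with θ hθ h'
  exact hθ (h h')

lemma Nul.union {A A' : Set ℂ} {z : ℂ} (hz : Nul A z) (hz' : Nul A' z) : Nul (A ∪ A') z := by
  filter_upwards [hz, hz'] with θ hθ hθ' h
  rcases h with h | h
  · exact hθ h
  · exact hθ' h

lemma Nul.iUnion {A : ℕ → Set ℂ} {z : ℂ} (hz : ∀ n, Nul (A n) z) : Nul (⋃ n, A n) z := by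
  have := ae_all_iff.2 hz
  filter_upwards [this] with θ hθ h
  obtain ⟨n, hn⟩ := mem_iUnion.1 h
  exact hθ n hn

/-- adding a set of diameter `< 1` of `Nul` points keeps the avoidance -/
lemma AEAvoid.union {S B : Set ℂ} (hS : MeasurableSet S) (h : AEAvoid S)
    (hB : ∀ᵐ z : ℂ, z ∈ B → Nul S z) (hd : ∀ x ∈ B, ∀ y ∈ B, dist x y < 1) :
    AEAvoid (S ∪ B) := by
  filter_upwards [h, hB, ae_shift hB, ae_mem_not_nul hS] with z h1 h2 h3 h4 hz
  rcases hz with hz | hz
  · refine (h1 hz).union ?_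
    filter_upwards [h3, h4] with θ hθ3 hθ4 hθB
    exact hθ4 hz (hθ3 hθB)
  · refine (h2 hz).union (Eventually.of_forall fun θ hθ => ?_)
    have := hd z hz _ hθ
    rw [dist_eq_norm] at this
    simp [norm_ue] at this

lemma AEAvoid.iUnion {S : ℕ → Set ℂ} (hm : Monotone S) (h : ∀ n, AEAvoid (S n)) :
    AEAvoid (⋃ n, S n) := by
  have := ae_all_iff.2 h
  filter_upwards [this] with z hz hzS
  obtain ⟨m, hm'⟩ := mem_iUnion.1 hzS
  refine Nul.iUnion fun n => ?_
  rcases le_total m n with hmn | hmn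
  · exact hz n (hm hmn hm')
  · exact (hz m hm').mono (hm hmn)

/-- a countable family of small balls that is a π-base -/
lemma exists_balls : ∃ B : ℕ → Set ℂ, (∀ n, IsOpen (B n)) ∧ (∀ n, (B n).Nonempty) ∧
    (∀ n, ∀ x ∈ B n, ∀ y ∈ B n, dist x y < 1) ∧
    ∀ O : Set ℂ, IsOpen O → O.Nonempty → ∃ n, B n ⊆ O := by
  let c : ℕ → ℂ := TopologicalSpace.denseSeq ℂ
  let rr : ℕ → ℝ := fun k => 1 / (2 * ((k : ℝ) + 1))
  have hr0 : ∀ k, 0 < rr k := fun k => by
    simp only [rr]; positivity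
  have hr1 : ∀ k, rr k ≤ 1 / 2 := fun k => by
    simp only [rr]
    apply one_div_le_one_div_of_le (by norm_num)
    have : (0 : ℝ) ≤ k := Nat.cast_nonneg k
    linarith
  refine ⟨fun n => Metric.ball (c n.unpair.1) (rr n.unpair.2), fun n => Metric.isOpen_ball,
    fun n => ⟨c n.unpair.1, Metric.mem_ball_self (hr0 _)⟩, ?_, ?_⟩
  · intro n x hx y hy
    rw [Metric.mem_ball] at hx hy
    have h := dist_triangle_right x y (c n.unpair.1)
    have := hr1 n.unpair.2
    linarith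
  · intro O hO hne
    obtain ⟨x, hx⟩ := hne
    obtain ⟨ε, hε0, hε⟩ := Metric.isOpen_iff.1 hO x hx
    obtain ⟨k, hk⟩ := exists_nat_gt (1 / ε)
    have hk2 : 2 * rr k < ε := by
      have h1 : 2 * rr k = 1 / ((k : ℝ) + 1) := by
        simp only [rr]; field_simp
      rw [h1, one_div_lt (by positivity) hε0]
      linarith
    obtain ⟨m, hm⟩ := Metric.denseRange_iff.1 (TopologicalSpace.denseRange_denseSeq ℂ) x (rr k) (hr0 k)
    refine ⟨Nat.pair m k, ?_⟩
    simp only [Nat.unpair_pair]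
    refine Subset.trans ?_ hε
    intro y hy
    rw [Metric.mem_ball] at hy ⊢
    have h := dist_triangle y (c m) x
    have h' : dist (c m) x < rr k := by rw [dist_comm]; exact hm
    linarith

open Classical in
/-- the greedy filling sequence -/
def fillSeq (B : ℕ → Set ℂ) (A : Set ℂ) : ℕ → Set ℂ
  | 0 => A
  | n + 1 => if (∀ᵐ z : ℂ, z ∈ B n → Nul (fillSeq B A n) z) then fillSeq B A n ∪ B n
      else fillSeq B A n

lemma fillSeq_succ_pos {B : ℕ → Set ℂ} {A : Set ℂ} {n : ℕ}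
    (h : ∀ᵐ z : ℂ, z ∈ B n → Nul (fillSeq B A n) z) :
    fillSeq B A (n + 1) = fillSeq B A n ∪ B n := by
  simp only [fillSeq]; rw [if_pos h]

lemma fillSeq_succ_neg {B : ℕ → Set ℂ} {A : Set ℂ} {n : ℕ}
    (h : ¬ ∀ᵐ z : ℂ, z ∈ B n → Nul (fillSeq B A n) z) :
    fillSeq B A (n + 1) = fillSeq B A n := by
  simp only [fillSeq]; rw [if_neg h]

lemma fillSeq_mono (B : ℕ → Set ℂ) (A : Set ℂ) : Monotone (fillSeq B A) := by
  refine monotone_nat_of_le_succ fun n => ?_
  by_cases h : ∀ᵐ z : ℂ, z ∈ B n → Nul (fillSeq B A n) z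
  · rw [fillSeq_succ_pos h]; exact subset_union_left
  · rw [fillSeq_succ_neg h]

lemma fillSeq_props {B : ℕ → Set ℂ} (hB : ∀ n, IsOpen (B n))
    (hd : ∀ n, ∀ x ∈ B n, ∀ y ∈ B n, dist x y < 1) {A : Set ℂ} (hA : MeasurableSet A)
    (hav : AEAvoid A) (n : ℕ) : MeasurableSet (fillSeq B A n) ∧ AEAvoid (fillSeq B A n) := by
  induction n with
  | zero => exact ⟨hA, hav⟩
  | succ n ih =>
    by_cases h : ∀ᵐ z : ℂ, z ∈ B n → Nul (fillSeq B A n) z
    · rw [fillSeq_succ_pos h]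
      exact ⟨ih.1.union (hB n).measurableSet, ih.2.union ih.1 h (hd n)⟩
    · rw [fillSeq_succ_neg h]; exact ih

/-- **Filling lemma.** -/
lemma fill {A : Set ℂ} (hA : MeasurableSet A) (hav : AEAvoid A) :
    ∃ A' : Set ℂ, A ⊆ A' ∧ MeasurableSet A' ∧ AEAvoid A' ∧
      ∀ O : Set ℂ, IsOpen O → O.Nonempty → (∀ᵐ z : ℂ, z ∈ O → Nul A' z) →
        ∃ O' ⊆ O, IsOpen O' ∧ O'.Nonempty ∧ O' ⊆ A' := by
  obtain ⟨B, hB, hBne, hd, hbase⟩ := exists_balls
  have hp := fillSeq_props hB hd hA hav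
  refine ⟨⋃ n, fillSeq B A n, subset_iUnion (fillSeq B A) 0, MeasurableSet.iUnion fun n => (hp n).1,
    AEAvoid.iUnion (fillSeq_mono B A) fun n => (hp n).2, ?_⟩
  intro O hO hOne hN
  obtain ⟨n, hn⟩ := hbase O hO hOne
  refine ⟨B n, hn, hB n, hBne n, ?_⟩
  have h : ∀ᵐ z : ℂ, z ∈ B n → Nul (fillSeq B A n) z := by
    filter_upwards [hN] with z hz hzB
    exact (hz (hn hzB)).mono (subset_iUnion (fillSeq B A) n)
  have h2 : B n ⊆ fillSeq B A (n + 1) := by
    rw [fillSeq_succ_pos h]; exact subset_union_right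
  exact h2.trans (subset_iUnion (fillSeq B A) (n + 1))

/-- the interior of an a.e. avoiding set is unit-avoiding -/
lemma AEAvoid.interior {A : Set ℂ} (h : AEAvoid A) :
    ∀ x ∈ interior A, ∀ y ∈ interior A, dist x y ≠ 1 := by
  intro x hx y hy hxy
  have hyx : ‖y - x‖ = 1 := by rw [← dist_eq_norm, dist_comm]; exact hxy
  obtain ⟨t, ht⟩ := exists_ue hyx
  obtain ⟨ε₁, hε₁0, hε₁⟩ := Metric.isOpen_iff.1 isOpen_interior x hx
  obtain ⟨ε₂, hε₂0, hε₂⟩ := Metric.isOpen_iff.1 isOpen_interior y hy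
  set ε := min ε₁ ε₂ with hε
  have hε0 : 0 < ε := lt_min hε₁0 hε₂0
  have h1 : volume (Metric.ball x (ε / 2)) ≠ 0 :=
    (Metric.measure_ball_pos volume x (by positivity)).ne'
  have h2 : ∃ z ∈ Metric.ball x (ε / 2), Nul A z := by
    by_contra hcon
    push Not at hcon
    apply h1
    refine measure_mono_null ?_ h
    intro z hz
    simp only [mem_compl_iff, mem_ofPred_eq, Classical.not_imp]
    refine ⟨interior_subset (hε₁ ?_), hcon z hz⟩
    rw [Metric.mem_ball] at hz ⊢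
    have := min_le_left ε₁ ε₂
    linarith
  obtain ⟨z, hz, hzN⟩ := h2
  have h3 : volume (Ioo (t - ε / 2) (t + ε / 2)) ≠ 0 := by
    rw [Real.volume_Ioo, Ne, ENNReal.ofReal_eq_zero, not_le]
    linarith
  apply h3
  refine measure_mono_null ?_ hzN
  intro θ hθ
  simp only [mem_compl_iff, mem_ofPred_eq, not_not]
  apply interior_subset
  apply hε₂
  rw [Metric.mem_ball, dist_eq_norm]
  have e : z + ue θ - y = (z - x) + (ue θ - ue t) := by rw [ht]; ring
  rw [e]
  have h4 : ‖z - x‖ < ε / 2 := by rwa [Metric.mem_ball, dist_eq_norm] at hz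
  have h5 : |θ - t| < ε / 2 := by
    rw [abs_lt]; have := mem_Ioo.1 hθ; constructor <;> linarith [this.1, this.2]
  have h6 := min_le_right ε₁ ε₂
  calc _ ≤ ‖z - x‖ + ‖ue θ - ue t‖ := norm_add_le _ _
    _ < ε₂ := by linarith [norm_ue_sub θ t]

/-- disjointification and regularisation of open unit-avoiding sets with dense union -/
theorem regularise {V : Fin 5 → Set ℂ} (hVo : ∀ i, IsOpen (V i))
    (hVa : ∀ i, ∀ x ∈ V i, ∀ y ∈ V i, dist x y ≠ 1) (hVd : Dense (⋃ i, V i)) :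
    ∃ U : Fin 5 → Set ℂ, (∀ i, IsOpen (U i)) ∧ (∀ i, interior (closure (U i)) = U i) ∧
      (∀ i j, i ≠ j → Disjoint (U i) (U j)) ∧
      (∀ i, ∀ x ∈ U i, ∀ y ∈ U i, dist x y ≠ 1) ∧ Dense (⋃ i, U i) := by
  classical
  -- disjointify
  let D : Fin 5 → Set ℂ := fun i => V i \ closure (⋃ j ∈ {j : Fin 5 | j < i}, V j)
  have hDo : ∀ i, IsOpen (D i) := fun i => (hVo i).sdiff isClosed_closure
  have hDV : ∀ i, D i ⊆ V i := fun i => Set.sdiff_subset
  have hlt : ∀ i j, i < j → Disjoint (D i) (D j) := by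
    intro i j hij
    rw [Set.disjoint_left]
    intro x hxi hxj
    apply hxj.2
    apply subset_closure
    simp only [mem_iUnion]
    exact ⟨i, hij, hxi.1⟩
  have hDd : ∀ i j, i ≠ j → Disjoint (D i) (D j) := by
    intro i j hij
    rcases lt_or_gt_of_ne hij with h | h
    · exact hlt i j h
    · exact (hlt j i h).symm
  have hDdense : Dense (⋃ i, D i) := by
    rw [dense_iff_inter_open]
    intro O hO hOne
    obtain ⟨x, hxO, hxV⟩ := dense_iff_inter_open.1 hVd O hO hOne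
    have hex : ∃ i, (O ∩ V i).Nonempty := by
      obtain ⟨i, hi⟩ := mem_iUnion.1 hxV
      exact ⟨i, x, hxO, hi⟩
    obtain ⟨i, hi, hmin⟩ : ∃ i, (O ∩ V i).Nonempty ∧ ∀ j < i, ¬ (O ∩ V j).Nonempty := by
      have hne : (Finset.univ.filter fun i : Fin 5 => (O ∩ V i).Nonempty).Nonempty := by
        obtain ⟨i, hi⟩ := hex
        exact ⟨i, by simp [hi]⟩
      have hmem := Finset.min'_mem _ hne
      refine ⟨Finset.min' _ hne, (Finset.mem_filter.1 hmem).2, fun j hj hj' => ?_⟩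
      have hjm : j ∈ Finset.univ.filter fun i : Fin 5 => (O ∩ V i).Nonempty :=
        Finset.mem_filter.2 ⟨Finset.mem_univ _, hj'⟩
      have := Finset.min'_le _ j hjm
      exact absurd hj (not_lt.2 this)
    obtain ⟨y, hyO, hyV⟩ := hi
    refine ⟨y, hyO, mem_iUnion.2 ⟨i, hyV, ?_⟩⟩
    intro hyc
    obtain ⟨w, hwO, hw⟩ := mem_closure_iff.1 hyc O hO hyO
    simp only [mem_iUnion] at hw
    obtain ⟨j, hj, hwj⟩ := hw
    exact hmin j hj ⟨w, hwO, hwj⟩
  have hclosure_avoid : ∀ i, ∀ x ∈ closure (D i), ∀ y ∈ D i, dist x y ≠ 1 := by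
    intro i x hx y hy hxy
    -- move both by a small translation
    obtain ⟨ε, hε0, hε⟩ := Metric.isOpen_iff.1 (hDo i) y hy
    obtain ⟨x', hx', hdx⟩ := Metric.mem_closure_iff.1 hx ε hε0
    have hy' : y + (x' - x) ∈ D i := by
      apply hε
      rw [Metric.mem_ball, dist_eq_norm]
      have : y + (x' - x) - y = x' - x := by ring
      rw [this, ← dist_eq_norm, dist_comm]
      exact hdx
    refine hVa i x' (hDV i hx') _ (hDV i hy') ?_
    rw [dist_eq_norm] at hxy ⊢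
    have : x' - (y + (x' - x)) = x - y := by ring
    rw [this, hxy]
  refine ⟨fun i => interior (closure (D i)), fun i => isOpen_interior, ?_, ?_, ?_, ?_⟩
  · intro i
    refine Subset.antisymm ?_ ?_
    · refine interior_mono ?_
      exact closure_minimal interior_subset isClosed_closure
    · refine (interior_maximal ?_ isOpen_interior)
      exact subset_closure
  · intro i j hij
    have h1 : Disjoint (closure (D i)) (D j) := (hDd i j hij).closure_left (hDo j)
    have h2 : Disjoint (interior (closure (D i))) (D j) := h1.mono_left interior_subset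
    have h3 : Disjoint (interior (closure (D i))) (closure (D j)) := h2.closure_right isOpen_interior
    exact h3.mono_right interior_subset
  · intro i x hx y hy hxy
    -- move `y` into `D i`
    obtain ⟨ε, hε0, hε⟩ := Metric.isOpen_iff.1 isOpen_interior x hx
    obtain ⟨y', hy', hdy⟩ := Metric.mem_closure_iff.1 (interior_subset hy) ε hε0
    have hx' : x + (y' - y) ∈ interior (closure (D i)) := by
      apply hε
      rw [Metric.mem_ball, dist_eq_norm]
      have : x + (y' - y) - x = y' - y := by ring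
      rw [this, ← dist_eq_norm, dist_comm]
      exact hdy
    refine hclosure_avoid i _ (interior_subset hx') y' hy' ?_
    rw [dist_eq_norm] at hxy ⊢
    have : x + (y' - y) - y' = x - y := by ring
    rw [this, hxy]
  · refine hDdense.mono ?_
    refine iUnion_mono fun i => ?_
    exact interior_maximal subset_closure (hDo i)

/-- **T2**: measurable a.e. `1`-avoiding sets with conull union give regular open, pairwise disjoint,
unit-avoiding sets with dense union. -/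
theorem main {A : Fin 5 → Set ℂ} (hA : ∀ i, MeasurableSet (A i))
    (hav : ∀ i, ∀ᵐ z : ℂ, z ∈ A i → ∀ᵐ θ : ℝ, z + Complex.exp (θ * Complex.I) ∉ A i)
    (hcov : ∀ᵐ z : ℂ, ∃ i, z ∈ A i) :
    ∃ U : Fin 5 → Set ℂ, (∀ i, IsOpen (U i)) ∧ (∀ i, interior (closure (U i)) = U i) ∧
      (∀ i j, i ≠ j → Disjoint (U i) (U j)) ∧
      (∀ i, ∀ x ∈ U i, ∀ y ∈ U i, dist x y ≠ 1) ∧ Dense (⋃ i, U i) := by
  have hav' : ∀ i, AEAvoid (A i) := hav
  choose A' hsub hm hav2 hfill using fun i => fill (hA i) (hav' i)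
  have hcov' : ∀ᵐ z : ℂ, ∃ i, Nul (A' i) z := by
    filter_upwards [hcov, ae_all_iff.2 hav2] with z hz h
    obtain ⟨i, hi⟩ := hz
    exact ⟨i, h i (hsub i hi)⟩
  refine regularise (V := fun i => interior (A' i)) (fun i => isOpen_interior)
    (fun i => (hav2 i).interior) ?_
  rw [dense_iff_inter_open]
  intro O hO hOne
  obtain ⟨i, B, hBO, hBo, hBne, hBN⟩ := dense_nul hm hcov' hO hOne
  obtain ⟨O', hO'B, hO'o, hO'ne, hO'A⟩ := hfill i B hBo hBne hBN
  obtain ⟨x, hx⟩ := hO'ne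
  exact ⟨x, hBO (hO'B hx), mem_iUnion.2 ⟨i, interior_maximal hO'A hO'o hx⟩⟩


/-- Version with the avoidance for a.e. pair `(z, θ)`. -/
theorem main_prod {A : Fin 5 → Set ℂ} (hA : ∀ i, MeasurableSet (A i))
    (hav : ∀ i, ∀ᵐ p : ℂ × ℝ, ¬ (p.1 ∈ A i ∧ p.1 + Complex.exp (Complex.I * p.2) ∈ A i))
    (hcov : ∀ᵐ z : ℂ, ∃ i, z ∈ A i) :
    ∃ U : Fin 5 → Set ℂ, (∀ i, IsOpen (U i)) ∧ (∀ i, interior (closure (U i)) = U i) ∧
      (∀ i j, i ≠ j → Disjoint (U i) (U j)) ∧
      (∀ i, ∀ x ∈ U i, ∀ y ∈ U i, dist x y ≠ 1) ∧ Dense (⋃ i, U i) := by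
  refine main hA (fun i => ?_) hcov
  have h := Measure.ae_ae_of_ae_prod (hav i)
  filter_upwards [h] with z hz hzA
  filter_upwards [hz] with θ hθ hθA
  rw [mul_comm] at hθA
  exact hθ ⟨hzA, hθA⟩

end

end Crest.Agent.R040.T2
private theorem rz_ca993a093d : type_of% @_root_.Crest.Agent.R040.T2.fillSeq.eq_def := @_root_.Crest.Agent.R040.T2.fillSeq.eq_def -- L98
private theorem rz_16e330306d : type_of% @_root_.Crest.Agent.R040.T2.fillSeq.eq_1 := @_root_.Crest.Agent.R040.T2.fillSeq.eq_1 -- L98
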